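import Vale.Agent.P078.Local.Loc.Local
import Vale.Agent.P078.Local.Flip.Super

/-!
# Sym: every colour has probability `1/r`
-/

noncomputable section

namespace Vale.Agent.P078.Local

open Loc Finset

variable {ι : Type*} [Fintype ι] [DecidableEq ι] {p : Par} {N : Net ι p.D}

/-- Seeds with the colour orders followed by `π`. -/
def permSeeds (π : Equiv.Perm (Fin p.r)) : Seeds ι p ≃ Seeds ι p :=
  Equiv.piCongrRight fun _ => Equiv.piCongrRight fun _ =>
    (Equiv.refl _).prodCongr (Equiv.mulLeft π)

/-- Permuting the colours in the seeds permutes the output. -/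
theorem isColour_permSeeds (hp : p.Ok) (π : Equiv.Perm (Fin p.r)) (ω : Seeds ι p) (σ : Coins ι p)
    (o : ι) (c : Fin p.r) :
    IsColour p N (permSeeds π ω) σ o (π c) ↔ IsColour p N ω σ o c := by
  have h := agree_stateAt (σ := σ) (σ' := σ) (π := π) (ω := ω) (ω' := permSeeds π ω)
    (BallMap.refl N o p.depend) hp.R_le (fun n a _ => ⟨rfl, rfl⟩) (fun _ _ _ => rfl) p.Nph le_rfl 0
    (by simpa using depend_ge p) o (N.mem_ball_self o 0)
  have he : ∀ d, (stateAt p N (permSeeds π ω) σ p.Nph).h o (π d)
      = (stateAt p N ω σ p.Nph).h o d := fun d => (h d).1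
  have hs : ∀ n d, (permSeeds π ω n o).2.symm (π d) = (ω n o).2.symm d := fun n d => by
    rw [Equiv.symm_apply_eq]
    simp [permSeeds]
  simp only [IsColour]
  refine and_congr ?_ (forall_congr' fun hn => ?_)
  · refine π.forall_congr_right.symm.trans ?_
    simp only [he]
  · refine π.forall_congr_right.symm.trans ?_
    simp only [he, hs]

/-- Probability is invariant under a bijection. -/
theorem prob_equiv {α β : Type*} [Fintype α] [Fintype β] (e : α ≃ β) (q : β → Prop) :
    prob (fun a => q (e a)) = prob q := by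
  classical
  simp only [prob, avg, Fintype.card_congr e]
  exact congrArg (· / _) (e.sum_comp fun b => if q b then (1 : ℝ) else 0)

/-- Exactly one of finitely many events happens: the probabilities sum to one. -/
theorem sum_prob_eq_one {α κ : Type*} [Fintype α] [Nonempty α] [Fintype κ] (q : κ → α → Prop)
    (hq : ∀ a, ∃! k, q k a) : ∑ k, prob (q k) = 1 := by
  classical
  simp only [prob]
  rw [← avg_sum]
  refine Eq.trans (congrArg avg (funext fun a => ?_)) (avg_const 1)
  obtain ⟨k, hk, hu⟩ := hq a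
  rw [sum_eq_single k (fun b _ hb => if_neg fun h => hb (hu b h)) (by simp), if_pos hk]

/-- Each history gives exactly one colour. -/
theorem existsUnique_isColour (hp : p.Ok) (ω : Seeds ι p) (σ : Coins ι p) (o : ι) :
    ∃! c, IsColour p N ω σ o c := by
  have hn : 0 < p.Nph := Nat.mul_pos hp.N2_pos (Nat.mul_pos hp.K1_pos hp.K2_pos)
  set h := (stateAt p N ω σ p.Nph).h o
  set e := (ω ⟨0, hn⟩ o).2
  have : Nonempty (Fin p.r) := ⟨⟨0, by have := hp.r_ge; omega⟩⟩
  obtain ⟨c₀, -, hc₀⟩ := exists_max_image univ h univ_nonempty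
  obtain ⟨c, hc, hmin⟩ := exists_min_image (univ.filter fun d => h d = h c₀) (fun d => e.symm d)
    ⟨c₀, by simp⟩
  have hc' : h c = h c₀ := (mem_filter.1 hc).2
  refine ⟨c, ⟨fun d => (hc₀ d (mem_univ d)).trans_eq hc'.symm, fun _ d hd =>
    hmin d (mem_filter.2 ⟨mem_univ d, hd.trans hc'⟩)⟩, fun d hd => ?_⟩
  have heq : h d = h c := le_antisymm ((hc₀ d (mem_univ d)).trans_eq hc'.symm) (hd.1 c)
  exact e.symm.injective (le_antisymm (hd.2 hn c heq.symm)
    (hmin d (mem_filter.2 ⟨mem_univ d, heq.trans hc'⟩)))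

open Classical in
/-- Every colour has probability `1/r`. -/
theorem symStmt (p : Par) (hp : p.Ok) (N : Net ι p.D) (o : ι) (c : Fin p.r) :
    prob (fun t : Seeds ι p × Coins ι p => IsColour p N t.1 t.2 o c) = 1 / p.r := by
  have hP : ∀ d, prob (fun t : Seeds ι p × Coins ι p => IsColour p N t.1 t.2 o d)
      = prob (fun t : Seeds ι p × Coins ι p => IsColour p N t.1 t.2 o c) := by
    intro d
    rw [← prob_equiv ((permSeeds (Equiv.swap c d)).prodCongr (Equiv.refl (Coins ι p)))]
    refine congrArg prob (funext fun t => propext ?_)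
    have := isColour_permSeeds (N := N) hp (Equiv.swap c d) t.1 t.2 o c
    rw [Equiv.swap_apply_left] at this
    exact this
  have : Nonempty (Fin p.P) := ⟨⟨0, hp.P_pos⟩⟩
  have : Nonempty (Seed p) := ⟨(Classical.arbitrary _, Equiv.refl _)⟩
  have : Nonempty (Seeds ι p) := ⟨fun _ _ => Classical.arbitrary _⟩
  have : Nonempty (Seeds ι p × Coins ι p) := ⟨(Classical.arbitrary _, fun _ => true)⟩
  have hsum := sum_prob_eq_one (fun d (t : Seeds ι p × Coins ι p) => IsColour p N t.1 t.2 o d)
    fun t => existsUnique_isColour hp t.1 t.2 o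
  simp only [hP, sum_const, card_univ, Fintype.card_fin, nsmul_eq_mul] at hsum
  exact eq_one_div_of_mul_eq_one_right hsum

end Vale.Agent.P078.Local
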