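import Vale.Agent.P078.Local.Loc.Transport
import Vale.Agent.P078.Local.Graph.Basic

/-!
# Isomorphisms of balls of nets
-/

namespace Vale.Agent.P078.Local.Loc

open Vale.Agent.P078.Local
open Finset
open scoped ComplexConjugate

variable {α β : Type*} [Fintype α] [DecidableEq α] [Fintype β] [DecidableEq β] {D : ℕ}

/-- `f` and the gauge `g` identify the ball `B(o, n)` of `N` with `B(f o, n)` of `N'`. -/
structure BallMap (N : Net α D) (N' : Net β D) (o : α) (n : ℕ) (f : α → β) (g : α → ℂ) : Prop where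
  inj : Set.InjOn f (N.ball o n : Set α)
  image : (N.ball o n).image f = N'.ball (f o) n
  adj : ∀ l ∈ N.ball o n, ∀ u ∈ N.ball o n, u ∈ N.nb l ↔ f u ∈ N'.nb (f l)
  x_eq : ∀ l ∈ N.ball o n, ∀ u ∈ N.ball o n, N'.x (f l) (f u) = g l * N.x l u * conj (g u)
  norm : ∀ l ∈ N.ball o n, ‖g l‖ = 1

theorem BallMap.refl (N : Net α D) (o : α) (n : ℕ) : BallMap N N o n id (fun _ => 1) :=
  ⟨Function.injective_id.injOn, image_id, fun _ _ _ _ => Iff.rfl, fun _ _ _ _ => by simp,
    fun _ _ => norm_one⟩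

variable {N : Net α D} {N' : Net β D} {o : α} {n : ℕ} {f : α → β} {g : α → ℂ}
variable {l u : α} {j k : ℕ}

theorem BallMap.map_mem (hB : BallMap N N' o n f g) :
    ∀ j ≤ n, ∀ v ∈ N.ball o j, f v ∈ N'.ball (f o) j := by
  intro j
  induction j with
  | zero => intro _ v hv; simp only [Net.ball, Net.nbhd_zero, mem_singleton] at hv ⊢; rw [hv]
  | succ j ih =>
    intro hj v hv
    simp only [Net.ball, Net.nbhd_succ, mem_union, mem_biUnion] at hv ⊢
    rcases hv with hv | ⟨w, hw, hv⟩
    · exact Or.inl (ih (by omega) v hv)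
    · refine Or.inr ⟨f w, ih (by omega) w hw, (hB.adj w ?_ v ?_).1 hv⟩
      · exact N.ball_mono (by omega) hw
      · exact N.ball_mono hj (N.mem_nbhd_succ hw hv)

theorem BallMap.image_nb (hB : BallMap N N' o n f g) (hj : j + 1 ≤ n) (hu : u ∈ N.ball o j) :
    (N.nb u).image f = N'.nb (f u) := by
  have hun : u ∈ N.ball o n := N.ball_mono (by omega) hu
  have hnb : N.nb u ⊆ N.ball o n := fun v hv => N.ball_mono hj (N.mem_nbhd_succ hu hv)
  ext w
  simp only [mem_image]
  constructor
  · rintro ⟨v, hv, rfl⟩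
    exact (hB.adj u hun v (hnb hv)).1 hv
  · intro hw
    have : w ∈ N'.ball (f o) n :=
      N'.ball_mono hj (N'.mem_nbhd_succ (hB.map_mem j (by omega) u hu) hw)
    rw [← hB.image, mem_image] at this
    obtain ⟨v, hv, rfl⟩ := this
    exact ⟨v, (hB.adj u hun v hv).2 hw, rfl⟩

theorem BallMap.ball_subset (hl : l ∈ N.ball o j) (hjk : j + k ≤ n) :
    N.ball l k ⊆ N.ball o n :=
  (N.ball_subset_ball hl).trans (N.ball_mono hjk)

theorem BallMap.image_ball (hB : BallMap N N' o n f g) (hl : l ∈ N.ball o j) :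
    ∀ k, j + k ≤ n → (N.ball l k).image f = N'.ball (f l) k := by
  intro k
  induction k with
  | zero => intro _; simp [Net.ball, Net.nbhd_zero]
  | succ k ih =>
    intro hk
    have := ih (by omega)
    simp only [Net.ball, Net.nbhd_succ] at this ⊢
    rw [image_union, this, biUnion_image, ← this, image_biUnion]
    congr 1
    exact biUnion_congr rfl fun u hu => hB.image_nb (j := j + k) (by omega) (N.ball_trans hl hu)

/-- Data transported on a ball inside the identified one. -/
theorem BallMap.moved (hB : BallMap N N' o n f g) {r : ℕ} {π : Equiv.Perm (Fin r)}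
    {h : α → Fin r → ℝ} {h' : β → Fin r → ℝ} (hl : l ∈ N.ball o j) (hjk : j + k ≤ n)
    (hh : ∀ a ∈ N.ball l k, ∀ c, h' (f a) (π c) = h a c) (s : Bool) :
    Moved (N.ball l k) f g π h h' (N.xs s) (N'.xs s) := by
  have hsub := BallMap.ball_subset (N := N) hl hjk
  refine ⟨hB.inj.mono (coe_subset.2 hsub), fun a ha => hB.norm a (hsub ha), hh, fun a ha b hb => ?_⟩
  cases s <;> simp [Net.xs, hB.x_eq a (hsub ha) b (hsub hb)]

end Vale.Agent.P078.Local.Loc
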