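import Vale.Agent.P078.Local.Loc.Run

/-!
# Loc: outputs depend only on the net and the seeds within `p.depend`, up to gauge
-/

noncomputable section

namespace Vale.Agent.P078.Local

universe u v

open Loc

theorem depend_ge (p : Par) : p.Nph * (p.P * (2 * p.R 0)) ≤ p.depend := by
  rw [Par.depend, Nat.mul_assoc]
  exact Nat.mul_le_mul (Nat.le_succ _) (Nat.mul_le_mul (Nat.le_succ _) (by omega))

/-- Outputs depend only on the net and the seeds within `p.depend`, up to gauge. -/
theorem localStmt (p : Par) (hp : p.Ok) (α : Type u) (β : Type v) [Fintype α] [DecidableEq α]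
    [Fintype β] [DecidableEq β] (N : Net α p.D) (N' : Net β p.D) (ω : Seeds α p) (σ : Coins α p)
    (ω' : Seeds β p) (σ' : Coins β p) (o : α) (f : α → β) (g : α → ℂ)
    (hinj : Set.InjOn f (N.ball o p.depend : Set α))
    (himg : (N.ball o p.depend).image f = N'.ball (f o) p.depend)
    (hiso : ∀ l ∈ N.ball o p.depend, ∀ u ∈ N.ball o p.depend,
      (u ∈ N.nb l ↔ f u ∈ N'.nb (f l)) ∧
        N'.x (f l) (f u) = g l * N.x l u * (starRingEnd ℂ) (g u))
    (hg : ∀ l ∈ N.ball o p.depend, ‖g l‖ = 1)
    (hseed : ∀ n, ∀ l ∈ N.ball o p.depend,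
      ω' n (f l) = ω n l ∧ σ' (n, some (f l)) = σ (n, some l)) :
    (stateAt p N' ω' σ' p.Nph).h (f o) = (stateAt p N ω σ p.Nph).h o := by
  have hB : BallMap N N' o p.depend f g :=
    ⟨hinj, himg, fun l hl u hu => (hiso l hl u hu).1, fun l hl u hu => (hiso l hl u hu).2, hg⟩
  have hω : SeedsAgree N o p.depend f 1 ω ω' := fun n a ha => by simp [(hseed n a ha).1]
  have := agree_stateAt hB hp.R_le hω (fun n a ha => (hseed n a ha).2) p.Nph le_rfl 0
    (by simpa using depend_ge p) o (N.mem_ball_self o 0)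
  funext c
  simpa using (this c).1

end Vale.Agent.P078.Local
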