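import Vale.Agent.P078.Local.Loc.Iso
import Vale.Agent.P078.Local.Def.Rule

/-!
# One step of the rule under an isomorphism of balls and a permutation of the colours
-/

noncomputable section

namespace Vale.Agent.P078.Local.Loc

open Vale.Agent.P078.Local
open scoped RealInnerProductSpace

/-- Permuting the colours permutes the chosen direction. -/
theorem pickDir_perm {r : ℕ} {κ : Type*} (π e : Equiv.Perm (Fin r)) {L L' : Finset (Fin r)}
    {rows rows' : κ → Fin r → ℝ} (hL : ∀ d, π d ∈ L' ↔ d ∈ L)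
    (hrows : ∀ k d, rows' k (π d) = rows k d) (c : Fin r) :
    pickDir L' rows' (π * e) (π c) = pickDir L rows e c := by
  set Φ := LinearIsometryEquiv.piLpCongrLeft 2 ℝ ℝ (π : Fin r ≃ Fin r) with hΦdef
  have hΦ : ∀ (v : EuclideanSpace ℝ (Fin r)) (d : Fin r), Φ v (π d) = v d := fun v d => by
    simp [hΦdef, LinearIsometryEquiv.piLpCongrLeft_apply, Equiv.piCongrLeft'_apply]
  set V := dirSpace L rows
  set V' := dirSpace L' rows'
  have hsum : ∀ F : Fin r → ℝ, ∑ d, F (π d) = ∑ d, F d := fun F => Equiv.sum_comp π F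
  have hmem : ∀ v, Φ v ∈ V' ↔ v ∈ V := by
    intro v
    show ((∀ d, d ∉ L' → Φ v d = 0) ∧ ∑ d, Φ v d = 0 ∧ ∀ k, ∑ d, Φ v d * rows' k d = 0)
      ↔ ((∀ d, d ∉ L → v d = 0) ∧ ∑ d, v d = 0 ∧ ∀ k, ∑ d, v d * rows k d = 0)
    have e2 : ∀ k, ∑ d, Φ v d * rows' k d = ∑ d, v d * rows k d := fun k => by
      rw [← hsum]; simp [hΦ, hrows]
    have e1 : ∑ d, Φ v d = ∑ d, v d := by rw [← hsum]; simp [hΦ]
    simp only [e1, e2]
    refine and_congr_left fun _ => ⟨fun h d hd => ?_, fun h d hd => ?_⟩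
    · rw [← hΦ v d]; exact h _ fun h' => hd ((hL d).1 h')
    · obtain ⟨d', rfl⟩ := π.surjective d
      rw [hΦ]; exact h _ fun h' => hd ((hL d').2 h')
  have hproj : ∀ u, V'.starProjection (Φ u) = Φ (V.starProjection u) := by
    intro u
    refine Submodule.eq_starProjection_of_mem_of_inner_eq_zero
      ((hmem _).2 (V.starProjection_apply_mem u)) fun w hw => ?_
    obtain ⟨w', rfl⟩ := Φ.surjective w
    rw [← map_sub, Φ.inner_map_map]
    exact Submodule.starProjection_inner_eq_zero u w' ((hmem w').1 hw)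
  have hv : ∀ j, V'.starProjection (EuclideanSpace.single ((π * e) j) (1 : ℝ))
      = Φ (V.starProjection (EuclideanSpace.single (e j) (1 : ℝ))) := fun j => by
    rw [← hproj]
    congr 1
    exact (LinearIsometryEquiv.piLpCongrLeft_single π (e j) (1 : ℝ)).symm
  have hne : ∀ w, (Φ w = 0) = (w = 0) := fun w => propext Φ.map_eq_zero_iff
  simp only [pickDir]
  simp only [V, V'] at hv
  simp only [hv, hne, ne_eq, decide_not]
  generalize List.find? _ (List.finRange r) = o
  cases o <;> simp [hΦ]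

variable {α β : Type*} [Fintype α] [DecidableEq α] [Fintype β] [DecidableEq β]
variable {p : Par} {N : Net α p.D} {N' : Net β p.D} {o : α} {R : ℕ} {f : α → β} {g : α → ℂ}
variable {π : Equiv.Perm (Fin p.r)} {ω : Seeds α p} {ω' : Seeds β p}
variable {st : St α p.r} {st' : St β p.r} {l : α} {j : ℕ}

/-- The states agree on `A`. -/
def Agree (f : α → β) (π : Equiv.Perm (Fin p.r)) (A : Finset α) (st : St α p.r) (st' : St β p.r) :
    Prop :=
  ∀ a ∈ A, ∀ c, st'.h (f a) (π c) = st.h a c ∧ ∀ i, st'.snap i (f a) (π c) = st.snap i a c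

theorem Agree.mono {A B : Finset α} (h : Agree f π A st st') (hBA : B ⊆ A) : Agree f π B st st' :=
  fun a ha => h a (hBA ha)

/-- The seeds agree on the identified ball. -/
def SeedsAgree (N : Net α p.D) (o : α) (R : ℕ) (f : α → β) (π : Equiv.Perm (Fin p.r))
    (ω : Seeds α p) (ω' : Seeds β p) : Prop :=
  ∀ n, ∀ a ∈ N.ball o R, (ω' n (f a)).1 = (ω n a).1 ∧ (ω' n (f a)).2 = π * (ω n a).2

theorem tie_iff (hB : BallMap N N' o R f g) (hω : SeedsAgree N o R f π ω ω') (n : Fin p.Nph)
    (hl : l ∈ N.ball o j) (hj : j + 2 * p.R 0 ≤ R) : tie p N' ω' n (f l) ↔ tie p N ω n l := by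
  have hsub := BallMap.ball_subset (N := N) hl hj
  have hll : l ∈ N.ball o R := N.ball_mono (by omega) hl
  simp only [tie, ← hB.image_ball hl _ hj, Finset.exists_mem_image]
  refine exists_congr fun u => and_congr_right fun hu => ?_
  rw [(hω n u (hsub hu)).1, (hω n l hll).1]
  exact and_congr_left fun _ => not_congr (hB.inj.eq_iff (hsub hu) hll)

variable (hB : BallMap N N' o R f g) (hR : ∀ i, p.R i ≤ p.R 0) (hl : l ∈ N.ball o j)
  (hj : j + p.R 0 ≤ R) (hA : Agree f π (N.ball l (p.R 0)) st st')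
include hB hR hl hj hA

theorem startOK_iff (i : Fin 3) (s : Bool) (L : ℝ) :
    startOK p N' i s L (st'.snap i) (f l) ↔ startOK p N i s L (st.snap i) l := by
  have hji : j + p.R i ≤ R := by have := hR i; omega
  have hM := hB.moved hl hji
    (fun a ha c => (hA a (N.ball_mono (hR i) ha) c).2 i) s
  have hphi : ∀ b : ℝ, Phi (N'.ball (f l) (p.R i)) (st'.snap i) (fun _ => b) (N'.xs s) (f l)
      = Phi (N.ball l (p.R i)) (st.snap i) (fun _ => b) (N.xs s) l := fun b => by
    rw [← hB.image_ball hl _ hji]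
    exact hM.phi_eq (N.mem_ball_self l _) fun _ _ => rfl
  simp only [startOK, hphi]
  rw [← hB.image_ball hl _ hji,
    hM.valid_iff (Z := fun _ => L) (N.xs_herm s) (N'.xs_herm s) fun _ _ => rfl]

theorem turnOK_iff (i : Fin 3) (s : Bool) (L : ℝ) :
    turnOK p N' i s L st'.h (f l) ↔ turnOK p N i s L st.h l := by
  have hji : j + p.R i ≤ R := by have := hR i; omega
  have hM := hB.moved hl hji (fun a ha c => (hA a (N.ball_mono (hR i) ha) c).1) s
  simp only [turnOK]
  rw [← hB.image_ball hl _ hji,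
    hM.valid_iff (Z := fun _ => L + p.rise i) (N.xs_herm s) (N'.xs_herm s) fun _ _ => rfl,
    hM.Irow_eq (Z := fun _ => L + p.rise i) (N.mem_ball_self l _) fun _ _ => rfl]

theorem killRows_eq (n : ℕ) (k : Fin 3 × Bool) (c : Fin p.r) :
    killRows p N' n st'.h (f l) k (π c) = killRows p N n st.h l k c := by
  have hji : j + p.R k.1 ≤ R := by have := hR k.1; omega
  have hM := hB.moved hl hji (fun a ha c => (hA a (N.ball_mono (hR k.1) ha) c).1) k.2
  simp only [killRows]
  rw [← hB.image_ball hl _ hji]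
  exact hM.m_eq (N.mem_ball_self l _) (fun _ _ => rfl) c

omit hB hR hl hj in
theorem live_iff (d : Fin p.r) : π d ∈ live p st'.h (f l) ↔ d ∈ live p st.h l := by
  simp [live, (hA l (N.mem_ball_self l _) d).1]

/-- The jump is transported. -/
theorem jumpAt_eq (hω : SeedsAgree N o R f π ω ω') (hj2 : j + 2 * p.R 0 ≤ R) (n : Fin p.Nph)
    (b : Bool) (c : Fin p.r) :
    jumpAt p N' ω' n st' (f l) b (π c) = jumpAt p N ω n st l b c := by
  have hcard : (live p st'.h (f l)).card = (live p st.h l).card :=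
    (Finset.card_equiv π fun d => (live_iff (N := N) hA d).symm).symm
  have hmove : canMove p N' ω' n st' (f l) ↔ canMove p N ω n st l := by
    simp only [canMove, startOK_iff hB hR hl hj hA, turnOK_iff hB hR hl hj hA, hcard,
      tie_iff hB hω n hl hj2]
  by_cases hm : canMove p N ω n st l
  · rw [jumpAt, if_pos (hmove.2 hm), jumpAt, if_pos hm]
    simp only [(hω n l (N.ball_mono (by omega) hl)).2]
    rw [pickDir_perm π (ω n l).2 (live_iff (N := N) hA)
      (fun k d => killRows_eq hB hR hl hj hA n k d) c]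
  · rw [jumpAt, if_neg (mt hmove.1 hm), jumpAt, if_neg hm]
    rfl

end Vale.Agent.P078.Local.Loc
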