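import Vale.Agent.P078.Local.Loc.Rule
import Vale.Agent.P078.Local.Period.Run

/-!
# The run of the rule near a site depends only on the ball of radius `p.depend`
-/

noncomputable section

namespace Vale.Agent.P078.Local.Loc

open Vale.Agent.P078.Local

section one

variable {ι : Type*} [Fintype ι] [DecidableEq ι] {p : Par} {N : Net ι p.D}

/-- Inside a priority class all jumps are made at the state before the class. -/
theorem runOn_class (hR : ∀ i, p.R i ≤ p.R 0) (ω : Seeds ι p) (σ : Coins ι p) (n : Fin p.Nph)
    (q : Fin p.P) : ∀ (L : List ι), L.Nodup → (∀ u ∈ L, (ω n u).1 = q) → ∀ st : St ι p.r,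
      runOn p N ω σ st (L.map fun u => (n, some u))
        = { h := fun u => if u ∈ L then st.h u + jumpAt p N ω n st u (σ (n, some u)) else st.h u
            snap := st.snap } := by
  intro L
  induction L with
  | nil => intro _ _ st; simp [runOn]
  | cons l L ih =>
    intro hnd hq st
    obtain ⟨hlL, hnd⟩ := List.nodup_cons.1 hnd
    set st1 := step p N ω st (n, some l) (σ (n, some l)) with hst1
    have hrun : runOn p N ω σ st ((l :: L).map fun u => (n, some u))
        = runOn p N ω σ st1 (L.map fun u => (n, some u)) := by
      simp [runOn, List.foldl_cons, hst1]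
    have hh1 : st1.h = Function.update st.h l (st.h l + jumpAt p N ω n st l (σ (n, some l))) := rfl
    have hsn : st1.snap = st.snap := rfl
    have hsame : ∀ u ∈ L, ∀ b, jumpAt p N ω n st1 u b = jumpAt p N ω n st u b := by
      intro u hu b
      have hul : u ≠ l := fun he => hlL (he ▸ hu)
      funext c
      have hA : Agree (id : ι → ι) 1 (N.ball u (p.R 0)) st st1 := by
        intro a ha d
        refine ⟨?_, fun i => by simp [hsn]⟩
        rcases eq_or_ne a l with rfl | hal
        · have ht : tie p N ω n a := ⟨u, N.mem_ball_symm (N.ball_mono (by omega) ha), hul, by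
            rw [hq u (List.mem_cons_of_mem _ hu), hq a (List.mem_cons_self ..)]⟩
          simp [hh1, jumpAt, canMove, ht]
        · simp [hh1, Function.update_of_ne hal]
      have := jumpAt_eq (π := 1) (ω := ω) (ω' := ω) (BallMap.refl N u (2 * p.R 0)) hR
        (N.mem_ball_self u 0) (j := 0) (by omega) hA (fun _ _ _ => by simp) (by omega) n b c
      simpa using this
    rw [hrun, ih hnd (fun u hu => hq u (List.mem_cons_of_mem _ hu)) st1]
    simp only [hsn, St.mk.injEq, and_true]
    funext u
    rcases eq_or_ne u l with rfl | hul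
    · simp [hlL, hh1]
    · by_cases hu : u ∈ L
      · simp [hu, hh1, hsame u hu, Function.update_of_ne hul]
      · simp [hu, hul, hh1]

end one

variable {α β : Type*} [Fintype α] [DecidableEq α] [Fintype β] [DecidableEq β]
variable {p : Par} {N : Net α p.D} {N' : Net β p.D} {o : α} {R : ℕ} {f : α → β} {g : α → ℂ}
variable {π : Equiv.Perm (Fin p.r)} {ω : Seeds α p} {ω' : Seeds β p} {σ : Coins α p}
variable {σ' : Coins β p}

variable (hB : BallMap N N' o R f g) (hR : ∀ i, p.R i ≤ p.R 0)
  (hω : SeedsAgree N o R f π ω ω')
  (hσ : ∀ n, ∀ a ∈ N.ball o R, σ' (n, some (f a)) = σ (n, some a))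
include hB hR hω hσ

/-- The priority classes `qs` of phase `n` cost `2 R₀` each. -/
theorem agree_classes (n : Fin p.Nph) : ∀ (qs : List (Fin p.P)) (j : ℕ) (st : St α p.r)
    (st' : St β p.r), j + qs.length * (2 * p.R 0) ≤ R →
    Agree f π (N.ball o (j + qs.length * (2 * p.R 0))) st st' →
    Agree f π (N.ball o j)
      (runOn p N ω σ st ((qs.flatMap fun q =>
        (Finset.univ.filter fun u => (ω n u).1 = q).toList).map fun u => (n, some u)))
      (runOn p N' ω' σ' st' ((qs.flatMap fun q =>
        (Finset.univ.filter fun u => (ω' n u).1 = q).toList).map fun u => (n, some u))) := by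
  intro qs
  induction qs with
  | nil => intro j st st' _ hA; simpa [runOn] using hA
  | cons q qs ih =>
    intro j st st' hjR hA
    rw [List.length_cons, Nat.succ_mul qs.length] at hjR hA
    simp only [List.flatMap_cons, List.map_append, runOn_append]
    refine ih j _ _ (by omega) ?_
    rw [runOn_class hR ω σ n q _ (Finset.nodup_toList _) (fun u hu => by simpa using hu) st,
      runOn_class hR ω' σ' n q _ (Finset.nodup_toList _) (fun u hu => by simpa using hu) st']
    set k := j + qs.length * (2 * p.R 0) with hk
    have hk2 : k + 2 * p.R 0 ≤ R := by omega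
    intro a ha c
    have haR : a ∈ N.ball o R := N.ball_mono (by omega) ha
    have hsub : N.ball a (p.R 0) ⊆ N.ball o (j + (qs.length * (2 * p.R 0) + 2 * p.R 0)) :=
      (N.ball_subset_ball ha).trans (N.ball_mono (by omega))
    have hmem : f a ∈ (Finset.univ.filter fun u => (ω' n u).1 = q).toList
        ↔ a ∈ (Finset.univ.filter fun u => (ω n u).1 = q).toList := by
      simp [(hω n a haR).1]
    have haA := hA a (N.ball_mono (by omega) ha) c
    refine ⟨?_, fun i => haA.2 i⟩
    simp only [hmem]
    split_ifs with hm
    · have hj := jumpAt_eq hB hR ha (by omega) (hA.mono hsub) hω hk2 n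
        (σ (n, some a)) c
      simp only [Pi.add_apply, haA.1, hσ n a haR, hj]
    · exact haA.1

/-- One phase costs `2 R₀ P`. -/
theorem agree_phase (n : Fin p.Nph) (j : ℕ) (st : St α p.r) (st' : St β p.r)
    (hjR : j + p.P * (2 * p.R 0) ≤ R) (hA : Agree f π (N.ball o (j + p.P * (2 * p.R 0))) st st') :
    Agree f π (N.ball o j) (runOn p N ω σ st (phaseSlots p ω n))
      (runOn p N' ω' σ' st' (phaseSlots p ω' n)) := by
  have hlen : (List.finRange p.P).length = p.P := List.length_finRange
  have := agree_classes hB hR hω hσ n (List.finRange p.P) j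
    (step p N ω st (n, none) (σ (n, none))) (step p N' ω' st' (n, none) (σ' (n, none)))
    (by rw [hlen]; exact hjR) (by
      rw [hlen]
      intro a ha c
      refine ⟨(hA a ha c).1, fun i => ?_⟩
      simp only [step]
      split_ifs
      · exact (hA a ha c).1
      · exact (hA a ha c).2 i)
  simpa [phaseSlots, runOn] using this

/-- The states agree near `o` at every phase. -/
theorem agree_stateAt : ∀ k, k ≤ p.Nph → ∀ j, j + k * (p.P * (2 * p.R 0)) ≤ R →
    Agree f π (N.ball o j) (stateAt p N ω σ k) (stateAt p N' ω' σ' k) := by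
  intro k
  induction k with
  | zero =>
    intro _ j _ a _ c
    simp [stateAt, seg_self, runOn, init]
  | succ k ih =>
    intro hk j hj
    rw [Nat.succ_mul] at hj
    rw [stateAt_succ ω σ (show k < p.Nph by omega), stateAt_succ ω' σ' (show k < p.Nph by omega)]
    exact agree_phase hB hR hω hσ _ j _ _ (by omega) (ih (by omega) _ (by omega))

end Vale.Agent.P078.Local.Loc
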