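import Vale.Agent.P078.Local.Def.Slice

/-!
# The mixture polynomial under renamed sites, a gauge and permuted colours
-/

namespace Vale.Agent.P078.Local.Loc

open Vale.Agent.P078.Local
open scoped ComplexConjugate
open Matrix

variable {α β : Type*} [DecidableEq α] [DecidableEq β] {r : ℕ}

/-- The data `(h', x')` on `T.image f` are `(h, x)` on `T` renamed by `f`, gauged by `g`, with
colours permuted by `π`. -/
structure Moved (T : Finset α) (f : α → β) (g : α → ℂ) (π : Equiv.Perm (Fin r))
    (h : α → Fin r → ℝ) (h' : β → Fin r → ℝ) (x : α → α → ℂ) (x' : β → β → ℂ) : Prop where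
  inj : Set.InjOn f T
  norm : ∀ a ∈ T, ‖g a‖ = 1
  law_eq : ∀ a ∈ T, ∀ c, h' (f a) (π c) = h a c
  x_eq : ∀ a ∈ T, ∀ b ∈ T, x' (f a) (f b) = g a * x a b * conj (g b)

variable {T U : Finset α} {f : α → β} {g : α → ℂ} {π : Equiv.Perm (Fin r)}
variable {h : α → Fin r → ℝ} {h' : β → Fin r → ℝ} {x : α → α → ℂ} {x' : β → β → ℂ}
variable {l u : α} {Z : α → ℝ} {Z' : β → ℝ}

theorem Moved.mono (hM : Moved T f g π h h' x x') (hU : U ⊆ T) : Moved U f g π h h' x x' :=
  ⟨hM.inj.mono (Finset.coe_subset.2 hU), fun a ha => hM.norm a (hU ha),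
    fun a ha => hM.law_eq a (hU ha), fun a ha b hb => hM.x_eq a (hU ha) b (hU hb)⟩

theorem Moved.image_erase (hM : Moved T f g π h h' x x') (hl : l ∈ T) :
    (T.image f).erase (f l) = (T.erase l).image f := by
  ext b
  simp only [Finset.mem_erase, Finset.mem_image]
  constructor
  · rintro ⟨hne, a, ha, rfl⟩
    exact ⟨a, ⟨fun he => hne (he ▸ rfl), ha⟩, rfl⟩
  · rintro ⟨a, ⟨hal, ha⟩, rfl⟩
    exact ⟨fun he => hal (hM.inj ha hl he), a, ha, rfl⟩

theorem Moved.pure (hM : Moved T f g π h h' x x') (hl : l ∈ T) (c : Fin r) :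
    Moved T f g π (Local.pure h l c) (Local.pure h' (f l) (π c)) x x' := by
  refine ⟨hM.inj, hM.norm, fun a ha d => ?_, hM.x_eq⟩
  rcases eq_or_ne a l with rfl | hne
  · simp [Local.pure, Pi.single_apply]
  · have : f a ≠ f l := fun he => hne (hM.inj ha hl he)
    simp [Local.pure, Function.update_of_ne hne, Function.update_of_ne this, hM.law_eq a ha d]

theorem Moved.q_eq (hM : Moved T f g π h h' x x') {z : α → ℂ} {z' : β → ℂ}
    (hz : ∀ a ∈ T, z' (f a) = z a) : q (T.image f) h' z' x' = q T h z x := by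
  let e : T ≃ ↥(T.image f) :=
    Equiv.ofBijective (fun a => ⟨f a, Finset.mem_image_of_mem f a.2⟩)
      ⟨fun a b hab => Subtype.ext (hM.inj a.2 b.2 (congrArg Subtype.val hab)), fun b => by
        obtain ⟨a, ha, hab⟩ := Finset.mem_image.1 b.2
        exact ⟨⟨a, ha⟩, Subtype.ext hab⟩⟩
  have he : ∀ a : T, ((e a : ↥(T.image f)) : β) = f a := fun a => rfl
  simp only [q]
  rw [← Equiv.sum_comp (e.arrowCongr π)]
  refine Finset.sum_congr rfl fun c _ => ?_
  congr 1
  · rw [← Equiv.prod_comp e]
    refine Finset.prod_congr rfl fun a _ => ?_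
    simp [he, hM.law_eq a a.2]
  · rw [← det_submatrix_equiv_self e]
    have hg : ∀ a : T, g a * conj (g a) = 1 := fun a => by
      rw [Complex.mul_conj, Complex.normSq_eq_norm_sq, hM.norm a a.2, one_pow, Complex.ofReal_one]
    have : (colMatrix (T.image f) (e.arrowCongr π c) z' x').submatrix e e
        = diagonal (fun a : T => g a) * colMatrix T c z x
          * diagonal (fun a : T => conj (g a)) := by
      ext a b
      simp only [colMatrix, submatrix_apply, diagonal_mul, mul_diagonal, e.injective.eq_iff,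
        Equiv.arrowCongr_apply, Function.comp_apply, Equiv.symm_apply_apply, π.injective.eq_iff,
        he, hz a a.2, hM.x_eq a a.2 b b.2]
      rcases eq_or_ne a b with rfl | hne
      · simp only [if_true]
        linear_combination (-(z a)) * hg a
      · by_cases hc : c a = c b <;> simp [hne, hc]
    rw [this, det_mul, det_mul, det_diagonal, det_diagonal,
      mul_right_comm, ← Finset.prod_mul_distrib, Finset.prod_eq_one (fun a _ => hg a), one_mul]

theorem Moved.qR_eq (hM : Moved T f g π h h' x x') (hz : ∀ a ∈ T, Z' (f a) = Z a) :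
    qR (T.image f) h' Z' x' = qR T h Z x := by
  simp only [qR, hM.q_eq (z := ofR Z) (z' := ofR Z') fun a ha => by simp [ofR, hz a ha]]

theorem Moved.valid_iff (hM : Moved T f g π h h' x x') (hx : IsHerm x) (hx' : IsHerm x')
    (hz : ∀ a ∈ T, Z' (f a) = Z a) :
    Valid (T.image f) h' Z' x' ↔ Valid T h Z x := by
  have : ∀ t : ℝ, q (T.image f) h' (ofR fun b => Z' b + t) x'
      = q T h (ofR fun a => Z a + t) x :=
    fun t => hM.q_eq fun a ha => by simp [ofR, hz a ha]
  simp only [Local.valid_iff, this, hx, hx', true_and]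

theorem Moved.m_eq (hM : Moved T f g π h h' x x') (hl : l ∈ T) (hz : ∀ a ∈ T, Z' (f a) = Z a)
    (c : Fin r) : m (T.image f) (f l) h' (π c) Z' x' = m T l h c Z x := by
  simp only [m, hM.image_erase hl]
  rw [(hM.mono (Finset.erase_subset l T)).qR_eq fun a ha => hz a (Finset.mem_of_mem_erase ha),
    (hM.pure hl c).qR_eq (Z := Function.update Z l 0) fun a ha => ?_]
  rcases eq_or_ne a l with rfl | hne
  · simp
  · have : f a ≠ f l := fun he => hne (hM.inj ha hl he)
    simp [Function.update_of_ne hne, Function.update_of_ne this, hz a ha]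

theorem Moved.phi_eq (hM : Moved T f g π h h' x x') (hl : l ∈ T)
    (hz : ∀ a ∈ T, Z' (f a) = Z a) : Phi (T.image f) h' Z' x' (f l) = Phi T h Z x l := by
  simp only [Phi, hM.image_erase hl, hM.qR_eq hz]
  rw [(hM.mono (Finset.erase_subset l T)).qR_eq fun a ha => hz a (Finset.mem_of_mem_erase ha)]

theorem Moved.W_eq (hM : Moved T f g π h h' x x') (hl : l ∈ T) (hu : u ∈ T)
    (hz : ∀ a ∈ T, Z' (f a) = Z a) : W (T.image f) h' Z' x' (f l) (f u) = W T h Z x l u := by
  rcases eq_or_ne l u with rfl | hne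
  · simp only [W, if_true, hM.phi_eq hl hz]
  · have hfne : f l ≠ f u := fun he => hne (hM.inj hl hu he)
    have hu' : u ∈ T.erase l := Finset.mem_erase.2 ⟨hne.symm, hu⟩
    have hsub : (T.erase l).erase u ⊆ T :=
      (Finset.erase_subset _ _).trans (Finset.erase_subset _ _)
    simp only [W, if_neg hne, if_neg hfne, hM.image_erase hl, hM.image_erase hu,
      (hM.mono (Finset.erase_subset l T)).image_erase hu', hM.qR_eq hz]
    rw [(hM.mono (Finset.erase_subset l T)).qR_eq fun a ha => hz a (Finset.mem_of_mem_erase ha),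
      (hM.mono (Finset.erase_subset u T)).qR_eq fun a ha => hz a (Finset.mem_of_mem_erase ha),
      (hM.mono hsub).qR_eq fun a ha => hz a (hsub ha)]

theorem Moved.Irow_eq (hM : Moved T f g π h h' x x') (hl : l ∈ T)
    (hz : ∀ a ∈ T, Z' (f a) = Z a) : Irow (T.image f) h' Z' x' (f l) = Irow T h Z x l := by
  rw [Irow, Irow, Finset.sum_image hM.inj]
  exact Finset.sum_congr rfl fun a ha => hM.W_eq hl ha hz

end Vale.Agent.P078.Local.Loc
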